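import Vale.Agent.H17.HadwigerDefs
import Vale.Agent.H17.HadwigerJoin

/-!
# Hadwiger's conjecture for joins of many small graphs
-/

namespace Vale.Agent.Results.P060.JoinsAndCodegree

open Vale.Agent.H17.Hadwiger

/-- the join of `m` copies of `G₀` -/
def joinPower {W : Type} (G₀ : SimpleGraph W) (m : ℕ) : SimpleGraph (Fin m × W) where
  Adj p q := p.1 ≠ q.1 ∨ G₀.Adj p.2 q.2
  symm := ⟨fun _ _ h => h.imp Ne.symm SimpleGraph.Adj.symm⟩
  loopless := ⟨fun _ h => h.elim (fun h => h rfl) (fun h => G₀.loopless.irrefl _ h)⟩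

theorem general (V : Type) [Fintype V] (G : SimpleGraph V) (B : ℕ)
    (hB : ∀ a, Set.ncard {x | x ≠ a ∧
      (¬ G.Adj a x ∨ ∃ z, z ≠ a ∧ z ≠ x ∧ ¬ G.Adj a z ∧ ¬ G.Adj x z)} ≤ B)
    (h : ∃ L : Finset (V × V), IsM G L ∧ 2 * B ≤ L.card) :
    G.chromaticNumber ≤ hadwigerNumber G := by
  classical
  have hN : ∀ a, (Finset.univ.filter fun x => x ≠ a ∧ ¬ Far G a x).card ≤ B := by
    intro a
    refine le_trans (le_of_eq ?_) (hB a)
    rw [← Set.ncard_coe_finset]
    congr 1
    ext x
    simp only [Finset.coe_filter, Finset.mem_univ, true_and, Set.mem_ofPred_eq, Far, mem_N]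
    constructor
    · rintro ⟨hxa, hf⟩
      refine ⟨hxa, ?_⟩
      by_cases hadj : G.Adj a x
      · right
        by_contra hcon
        apply hf
        refine ⟨hadj, fun z hz hz' => hcon ⟨z, hz.1, hz'.1, hz.2, hz'.2⟩⟩
      · exact Or.inl hadj
    · rintro ⟨hxa, hf⟩
      refine ⟨hxa, fun hfar => ?_⟩
      rcases hf with h1 | ⟨z, h1, h2, h3, h4⟩
      · exact h1 hfar.1
      · exact hfar.2 z ⟨h1, h3⟩ ⟨h2, h4⟩
  obtain ⟨M, hM, hmax⟩ := exists_max G
  obtain ⟨L, hL, hLc⟩ := h
  have hminor := le_hadwiger G (minorB hM hmax hN (hLc.trans (hmax L hL)))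
  exact ((colorable hM).chromaticNumber_le).trans (by exact_mod_cast hminor)

theorem joins (V : Type) [Fintype V] (G : SimpleGraph V) (m c : ℕ) (comp : V → Fin m)
    (h1 : ∀ x y, comp x ≠ comp y → G.Adj x y) (h2 : ∀ i, Set.ncard {x | comp x = i} ≤ c)
    (h3 : 2 * c ≤ Set.ncard {i | ∃ x y, comp x = i ∧ comp y = i ∧ x ≠ y ∧ ¬ G.Adj x y}) :
    G.chromaticNumber ≤ hadwigerNumber G := by
  classical
  have hcomp : ∀ x y, ¬ G.Adj x y → comp x = comp y := fun x y h => by
    by_contra hne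
    exact h (h1 x y hne)
  refine general V G c ?_ ?_
  · intro a
    refine le_trans (Set.ncard_le_ncard ?_ (Set.toFinite _)) (h2 (comp a))
    rintro x ⟨-, h | ⟨z, -, -, h, h'⟩⟩
    · exact (hcomp _ _ h).symm
    · exact (hcomp _ _ h').trans (hcomp _ _ h).symm
  · let I : Finset (Fin m) :=
      Finset.univ.filter fun i => ∃ x y, comp x = i ∧ comp y = i ∧ x ≠ y ∧ ¬ G.Adj x y
    have hI : ∀ i : ↥I, ∃ p : V × V, comp p.1 = i.1 ∧ comp p.2 = i.1 ∧ p.1 ≠ p.2 ∧
        ¬ G.Adj p.1 p.2 := fun i => by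
      obtain ⟨x, y, h⟩ := (Finset.mem_filter.mp i.2).2
      exact ⟨(x, y), h⟩
    choose f hf using hI
    have hinj : Function.Injective f := fun i j hij =>
      Subtype.ext ((hf i).1.symm.trans (hij ▸ (hf j).1))
    refine ⟨Finset.univ.image f, ⟨?_, ?_⟩, ?_⟩
    · intro p hp
      obtain ⟨i, -, rfl⟩ := Finset.mem_image.mp hp
      exact (hf i).2.2
    · intro p hp q hq hpq
      obtain ⟨i, -, rfl⟩ := Finset.mem_image.mp hp
      obtain ⟨j, -, rfl⟩ := Finset.mem_image.mp hq
      have hij : i.1 ≠ j.1 := fun h => hpq (by rw [Subtype.ext h])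
      refine ⟨fun h => hij ?_, fun h => hij ?_, fun h => hij ?_, fun h => hij ?_⟩
      · rw [← (hf i).1, h, (hf j).1]
      · rw [← (hf i).1, h, (hf j).2.1]
      · rw [← (hf i).2.1, h, (hf j).1]
      · rw [← (hf i).2.1, h, (hf j).2.1]
    · rw [Finset.card_image_of_injective _ hinj, Finset.card_univ, Fintype.card_coe]
      refine h3.trans (le_of_eq ?_)
      rw [← Set.ncard_coe_finset]
      congr 1
      ext i
      simp [I]

/-- (1) If every vertex of `G` is at distance at most two in the complement from at most `B` other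
vertices and the complement contains `2 B` pairwise disjoint edges, then `χ(G) ≤ h(G)`.
(2) If `G` is the join of `m` graphs with at most `c` vertices each, at least `2 c` of which are
not complete, then `χ(G) ≤ h(G)`.
(3) For every finite graph `G₀` and every `m ≥ 2 |G₀|`, the join of `m` copies of `G₀` satisfies
`χ ≤ h`. -/
theorem result :
    (∀ (V : Type) [Fintype V] (G : SimpleGraph V) (B : ℕ),
      (∀ a, Set.ncard {x | x ≠ a ∧
        (¬ G.Adj a x ∨ ∃ z, z ≠ a ∧ z ≠ x ∧ ¬ G.Adj a z ∧ ¬ G.Adj x z)} ≤ B) →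
      (∃ a b : Fin (2 * B) → V, Function.Injective (Sum.elim a b) ∧ ∀ i, ¬ G.Adj (a i) (b i)) →
      G.chromaticNumber ≤ hadwigerNumber G) ∧
    (∀ (V : Type) [Fintype V] (G : SimpleGraph V) (m c : ℕ) (comp : V → Fin m),
      (∀ x y, comp x ≠ comp y → G.Adj x y) → (∀ i, Set.ncard {x | comp x = i} ≤ c) →
      2 * c ≤ Set.ncard {i | ∃ x y, comp x = i ∧ comp y = i ∧ x ≠ y ∧ ¬ G.Adj x y} →
      G.chromaticNumber ≤ hadwigerNumber G) ∧
    (∀ (W : Type) [Fintype W] (G₀ : SimpleGraph W) (m : ℕ), 2 * Fintype.card W ≤ m →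
      (joinPower G₀ m).chromaticNumber ≤ hadwigerNumber (joinPower G₀ m)) := by
  classical
  refine ⟨?_, ?_, ?_⟩
  · intro V _ G B hB h
    refine general V G B hB ?_
    obtain ⟨a, b, hinj, hab⟩ := h
    have ha : Function.Injective a := fun i j hij => Sum.inl.inj (hinj (by simpa using hij))
    have hb : Function.Injective b := fun i j hij => Sum.inr.inj (hinj (by simpa using hij))
    have hne : ∀ i j, a i ≠ b j := fun i j hij =>
      Sum.inl_ne_inr (hinj (a₁ := Sum.inl i) (a₂ := Sum.inr j) (by simpa using hij))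
    refine ⟨Finset.univ.image fun i => (a i, b i), ⟨?_, ?_⟩, ?_⟩
    · intro p hp
      obtain ⟨i, -, rfl⟩ := Finset.mem_image.mp hp
      exact ⟨hne i i, hab i⟩
    · intro p hp q hq hpq
      obtain ⟨i, -, rfl⟩ := Finset.mem_image.mp hp
      obtain ⟨j, -, rfl⟩ := Finset.mem_image.mp hq
      have hij : i ≠ j := fun h => hpq (by rw [h])
      exact ⟨fun h => hij (ha h), hne i j, (hne j i).symm, fun h => hij (hb h)⟩
    · rw [Finset.card_image_of_injective _ (fun i j hij => ha (Prod.mk.inj hij).1)]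
      simp
  · intro V _ G m c comp h1 h2 h3
    exact joins V G m c comp h1 h2 h3
  · intro W _ G₀ m hm
    by_cases hcomplete : ∀ x y, x ≠ y → G₀.Adj x y
    · refine general _ _ 0 ?_ ⟨∅, ⟨by simp, by simp⟩, by simp⟩
      intro a
      rw [Nat.le_zero, Set.ncard_eq_zero (Set.toFinite _), Set.eq_empty_iff_forall_notMem]
      have hadj : ∀ p q : Fin m × W, p ≠ q → (joinPower G₀ m).Adj p q := by
        intro p q hpq
        by_cases h : p.1 = q.1
        · exact Or.inr (hcomplete _ _ fun h' => hpq (Prod.ext h h'))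
        · exact Or.inl h
      rintro x ⟨hxa, h | ⟨z, h4, -, h, -⟩⟩
      · exact h (hadj _ _ hxa.symm)
      · exact h (hadj _ _ h4.symm)
    · push Not at hcomplete
      obtain ⟨x, y, hxy, hadj⟩ := hcomplete
      refine joins _ _ m (Fintype.card W) Prod.fst (fun p q h => Or.inl h) ?_ ?_
      · intro i
        refine le_trans ?_ (le_of_eq (Nat.card_eq_fintype_card (α := W)))
        rw [← Set.ncard_univ]
        exact Set.ncard_le_ncard_of_injOn Prod.snd (fun _ _ => Set.mem_univ _)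
          (fun p hp q hq h => Prod.ext (hp.trans hq.symm) h) (Set.toFinite _)
      · refine hm.trans (le_of_eq ?_)
        have : {i : Fin m | ∃ p q : Fin m × W, p.1 = i ∧ q.1 = i ∧ p ≠ q ∧
            ¬ (joinPower G₀ m).Adj p q} = Set.univ := by
          rw [Set.eq_univ_iff_forall]
          intro i
          refine ⟨(i, x), (i, y), rfl, rfl, fun h => hxy (Prod.mk.inj h).2, ?_⟩
          rintro (h | h)
          · exact h rfl
          · exact hadj h
        rw [this, Set.ncard_univ]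
        simp

end Vale.Agent.Results.P060.JoinsAndCodegree
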