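import Vale.Agent.H17.HadwigerDefs
import Vale.Agent.H17.HadwigerDense

/-!
# Hadwiger's conjecture for graphs whose complement has bounded degree
-/

namespace Vale.Agent.Results.P060.SparseComplement

open Vale.Agent.H17.Hadwiger

/-- Let `G` be a finite graph in which every vertex has at most `D` non-neighbours. Suppose that the
complement contains `2 D ^ 2` pairwise disjoint edges, or that at least `4 D ^ 3` vertices are not
adjacent to all other vertices. Then `χ(G) ≤ h(G)`, and moreover `h(G) ≥ |V(G)| / 2`. -/
theorem result (V : Type) [Fintype V] (G : SimpleGraph V) (D : ℕ)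
    (hD : ∀ v, Set.ncard {w | w ≠ v ∧ ¬ G.Adj v w} ≤ D)
    (h : (∃ a b : Fin (2 * D ^ 2) → V, Function.Injective (Sum.elim a b) ∧
        ∀ i, ¬ G.Adj (a i) (b i)) ∨
      4 * D ^ 3 ≤ Set.ncard {v | ∃ w, w ≠ v ∧ ¬ G.Adj v w}) :
    G.chromaticNumber ≤ hadwigerNumber G ∧ Fintype.card V ≤ 2 * hadwigerNumber G := by
  classical
  have hN : ∀ v, (N G v).card ≤ D := by
    intro v
    refine le_trans (le_of_eq ?_) (hD v)
    rw [← Set.ncard_coe_finset]
    congr 1
    ext w
    simp [N]
  obtain ⟨M, hM, hmax⟩ := exists_max G
  have hcard : 2 * D ^ 2 ≤ M.card := by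
    rcases h with ⟨a, b, hinj, hab⟩ | hs
    · have ha : Function.Injective a := fun i j hij => Sum.inl.inj (hinj (by simpa using hij))
      have hb : Function.Injective b := fun i j hij => Sum.inr.inj (hinj (by simpa using hij))
      have hne : ∀ i j, a i ≠ b j := fun i j hij =>
        Sum.inl_ne_inr (hinj (a₁ := Sum.inl i) (a₂ := Sum.inr j) (by simpa using hij))
      have h1 : IsM G (Finset.univ.image fun i => (a i, b i)) := by
        refine ⟨?_, ?_⟩
        · intro p hp
          obtain ⟨i, -, rfl⟩ := Finset.mem_image.mp hp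
          exact ⟨hne i i, hab i⟩
        · intro p hp q hq hpq
          obtain ⟨i, -, rfl⟩ := Finset.mem_image.mp hp
          obtain ⟨j, -, rfl⟩ := Finset.mem_image.mp hq
          have hij : i ≠ j := fun h => hpq (by rw [h])
          exact ⟨fun h => hij (ha h), hne i j, (hne j i).symm, fun h => hij (hb h)⟩
      have h2 := hmax _ h1
      rw [Finset.card_image_of_injective _ (fun i j hij => ha (Prod.mk.inj hij).1)] at h2
      simpa using h2
    · refine card_lower hM hmax hN (hs.trans (le_of_eq ?_))
      rw [← Set.ncard_coe_finset]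
      congr 1
      ext v
      simp [N, Finset.Nonempty]
  have hminor := le_hadwiger G (minor hM hmax hN hcard)
  refine ⟨?_, (card_V_le M).trans (Nat.mul_le_mul_left 2 hminor)⟩
  exact ((colorable hM).chromaticNumber_le).trans (by exact_mod_cast hminor)

end Vale.Agent.Results.P060.SparseComplement
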